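import Vale.Agent.P024.Bdl.B2
import Vale.Agent.P024.Bdl.B1
/-!
Uchida's conjecture for homomorphisms compatible with the cyclotomic characters. The image is not
assumed to be open.
-/

namespace Vale.Agent.Results.P024.CyclotomicCompat

open Vale.Agent.P024

/-- The field embedding `j` induces the homomorphism `α`: `g ∘ j = j ∘ α(g)` for all `g`. -/
def Induces {F₁ E₁ F₂ E₂ : Type*} [Field F₁] [Field E₁] [Algebra F₁ E₁] [Field F₂] [Field E₂]
    [Algebra F₂ E₂] (α : (E₁ ≃ₐ[F₁] E₁) →* (E₂ ≃ₐ[F₂] E₂)) (j : E₂ →+* E₁) : Prop :=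
  ∀ (g : E₁ ≃ₐ[F₁] E₁) (x : E₂), g (j x) = j ((α g) x)

/-- `α` is compatible with the cyclotomic characters: if `g` raises the `n`-th roots of unity
of `E₁` to the power `k`, then so does `α(g)` on the `n`-th roots of unity of `E₂`. -/
def CyclotomicCompatible {F₁ E₁ F₂ E₂ : Type*} [Field F₁] [Field E₁] [Algebra F₁ E₁] [Field F₂]
    [Field E₂] [Algebra F₂ E₂] (α : (E₁ ≃ₐ[F₁] E₁) →* (E₂ ≃ₐ[F₂] E₂)) : Prop :=
  ∀ (g : E₁ ≃ₐ[F₁] E₁) (n k : ℕ), 0 < n → (∀ z : E₁, z ^ n = 1 → g z = z ^ k) →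
    ∀ z : E₂, z ^ n = 1 → (α g) z = z ^ k

theorem result {F₁ E₁ F₂ E₂ : Type*} [Field F₁] [NumberField F₁] [Field E₁]
    [Algebra F₁ E₁] [IsGalois F₁ E₁] [Field F₂] [NumberField F₂] [Field E₂] [Algebra F₂ E₂]
    [IsGalois F₂ E₂] (hE₁ : SolvablyClosed E₁) (hE₂ : SolvablyClosed E₂)
    (α : (E₁ ≃ₐ[F₁] E₁) →* (E₂ ≃ₐ[F₂] E₂)) (hα : Continuous α) :
    ((∃! j : E₂ →+* E₁, Induces α j) ↔ CyclotomicCompatible α) ∧
      (CyclotomicCompatible α → IsOpen (Set.range α)) := by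
  have : CharZero E₁ := charZero_of_injective_algebraMap (algebraMap F₁ E₁).injective
  have : CharZero E₂ := charZero_of_injective_algebraMap (algebraMap F₂ E₂).injective
  have hex : CyclotomicCompatible α → ∃ j : E₂ →+* E₁, Induces α j := by
    intro h
    refine induced_of_ker_A hE₁ hE₂ α hα Nat.prime_three (by norm_num) ⊤ isOpen_univ ∅
      Set.finite_empty ?_
    intro g _ p a b hp _ _ ha hb hb1
    obtain ⟨ξ, hξ⟩ := hE₂.exists_primitiveRoot p hp.pos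
    have h1 := h g p a hp.pos ha ξ hξ.pow_eq_one
    rw [hb ξ hξ.pow_eq_one] at h1
    have h2 : b ≡ a [MOD p] := (pow_eq_pow_iff_modEq' hξ hp.pos).1 h1
    exact (h2.symm.pow _).trans hb1
  refine ⟨⟨?_, ?_⟩, ?_⟩
  · rintro ⟨j, hj, -⟩ g n k hn hg z hz
    apply j.injective
    rw [← hj g z, map_pow]
    exact hg (j z) (by rw [← map_pow, hz, map_one])
  · intro h
    obtain ⟨j, hj⟩ := hex h
    obtain ⟨ζ, hζ⟩ := hE₁.exists_primitiveRoot 3 (by norm_num)
    exact ⟨j, hj, fun j' hj' => unique_of_induces α Nat.prime_three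
      (hE₁.exists_root 3 (by norm_num)) (hE₂.exists_root 3 (by norm_num)) hζ j' j hj' hj⟩
  · intro h
    obtain ⟨j, hj⟩ := hex h
    exact isOpen_range_of_induces α hα j hj

end Vale.Agent.Results.P024.CyclotomicCompat
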