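import Vale.Agent.P024.Bdl.B2

/-!
Uchida's conjecture and the local correspondence: decomposition groups at the primes whose inertia
is not killed are mapped into decomposition groups, and a homomorphism is induced by a field
embedding if and only if this correspondence preserves residue characteristics.
-/

namespace Vale.Agent.Results.P024.LocalCorrespondence

open scoped NumberField Topology
open IsDedekindDomain Filter

/-- `E` has no nontrivial abelian algebraic extension. -/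
def IsSolvablyClosed (E : Type*) [Field E] : Prop :=
  ∀ M : IntermediateField E (AlgebraicClosure E), IsAbelianGalois E M → M = ⊥

/-- The prime numbers in `B` have Dirichlet density zero. -/
def DensityZero (B : Set ℕ) : Prop :=
  Tendsto (fun s : ℝ => (∑' p : {p : ℕ | p.Prime ∧ p ∈ B}, ((p : ℕ) : ℝ) ^ (-s)) /
    Real.log (1 / (s - 1))) (𝓝[>] 1) (𝓝 0)

/-- The primes of the number field `F` in `P` have upper Dirichlet density at least `d`. -/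
def DensityAtLeast {F : Type*} [Field F] [NumberField F] (P : Set (HeightOneSpectrum (𝓞 F)))
    (d : ℝ) : Prop :=
  ∃ᶠ s : ℝ in 𝓝[>] 1, d * Real.log (1 / (s - 1)) ≤
    ∑' v : P, (Ideal.absNorm v.1.asIdeal : ℝ) ^ (-s)

section

variable {F E : Type*} [Field F] [Field E] [Algebra F E]

/-- The valuation ring `O` of `E` lies above the prime `v` of `F`. -/
def Above (O : ValuationSubring E) (v : HeightOneSpectrum (𝓞 F)) : Prop :=
  ∀ x : 𝓞 F, x ∈ v.asIdeal ↔ algebraMap F E x ∈ O.nonunits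

/-- `g` maps `O` onto itself and acts on the residue field of `O` as the `q`-th power map. For
`q = 1` this means that `g` is in the inertia group of `O`. -/
def ActsAs (O : ValuationSubring E) (q : ℕ) (g : E ≃ₐ[F] E) : Prop :=
  (∀ x : E, g x ∈ O ↔ x ∈ O) ∧ ∀ x ∈ O, g x - x ^ q ∈ O.nonunits

/-- `g` has `p`-power order in every finite quotient of the Galois group. -/
def IsProP (p : ℕ) (g : E ≃ₐ[F] E) : Prop :=
  ∀ U : Subgroup (E ≃ₐ[F] E), IsOpen (U : Set (E ≃ₐ[F] E)) → ∃ n : ℕ, g ^ (p ^ n) ∈ U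

end

section

variable {F₁ E₁ F₂ E₂ : Type*} [Field F₁] [Field E₁] [Algebra F₁ E₁] [Field F₂] [Field E₂]
  [Algebra F₂ E₂]

/-- The field embedding `j` induces the homomorphism `α`: `g ∘ j = j ∘ α(g)` for all `g`. -/
def Induces (α : (E₁ ≃ₐ[F₁] E₁) →* (E₂ ≃ₐ[F₂] E₂)) (j : E₂ →+* E₁) : Prop :=
  ∀ (g : E₁ ≃ₐ[F₁] E₁) (x : E₂), g (j x) = j ((α g) x)

/-- If `g` raises the `n`-th roots of unity of `E₁` to the power `k`, then so does `α(g)` on the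
`n`-th roots of unity of `E₂`. -/
def CyclotomicCompatible (α : (E₁ ≃ₐ[F₁] E₁) →* (E₂ ≃ₐ[F₂] E₂)) : Prop :=
  ∀ (g : E₁ ≃ₐ[F₁] E₁) (n k : ℕ), 0 < n → (∀ z : E₁, z ^ n = 1 → g z = z ^ k) →
    ∀ z : E₂, z ^ n = 1 → (α g) z = z ^ k

/-- The primes `v` of `F₁`, not above `p`, such that `α` does not kill the pro-`p` elements of the
inertia groups above `v`. -/
def Alive (α : (E₁ ≃ₐ[F₁] E₁) →* (E₂ ≃ₐ[F₂] E₂)) (p : ℕ) : Set (HeightOneSpectrum (𝓞 F₁)) :=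
  {v | (p : 𝓞 F₁) ∉ v.asIdeal ∧ ∃ (O : ValuationSubring E₁) (t : E₁ ≃ₐ[F₁] E₁),
    Above O v ∧ ActsAs O 1 t ∧ IsProP p t ∧ α t ≠ 1}

/-- `V` is a nontrivial valuation ring of `E₂` and `α` maps the decomposition group of `O` into the
decomposition group of `V`. -/
def MapsInto (α : (E₁ ≃ₐ[F₁] E₁) →* (E₂ ≃ₐ[F₂] E₂)) (O : ValuationSubring E₁)
    (V : ValuationSubring E₂) : Prop :=
  V ≠ ⊤ ∧ ∀ g : E₁ ≃ₐ[F₁] E₁, (∀ x : E₁, g x ∈ O ↔ x ∈ O) → ∀ x : E₂, (α g) x ∈ V ↔ x ∈ V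

end

/-- The notion of the helper files. -/
theorem alive_eq {F₁ E₁ F₂ E₂ : Type*} [Field F₁] [NumberField F₁] [Field E₁] [Algebra F₁ E₁]
    [IsGalois F₁ E₁] [Field F₂] [Field E₂] [Algebra F₂ E₂]
    (α : (E₁ ≃ₐ[F₁] E₁) →* (E₂ ≃ₐ[F₂] E₂)) (p : ℕ) : Alive α p = Vale.Agent.P024.Alive α p := by
  ext v
  constructor
  · rintro ⟨hp, O, t, hO, ht, htp, hαt⟩
    refine ⟨hp, O, ?_, hO, t, ht.1, ?_, ?_, hαt⟩
    · rintro rfl
      obtain ⟨x, hx, hx0⟩ := Submodule.exists_mem_ne_zero_of_ne_bot v.ne_bot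
      rcases Vale.Agent.P024.nonunits_iff.1 ((hO x).1 hx) with h | h
      · exact hx0 (by simpa using h)
      · exact h trivial
    · exact fun x hx => ht.2 x hx
    · intro x
      obtain ⟨n, hn⟩ := htp (MulAction.stabilizer (E₁ ≃ₐ[F₁] E₁) x)
        (stabilizer_isOpen_of_isIntegral (K := F₁) (L := E₁) x)
      exact ⟨n, hn⟩
  · rintro ⟨hp, O, hO, hv, t, ht, ht1, htp, hαt⟩
    exact ⟨hp, O, t, hv, ⟨ht, fun x hx => ht1 x hx⟩, fun U hU => htp.mem_open U hU, hαt⟩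

theorem result {F₁ E₁ F₂ E₂ : Type*} [Field F₁] [NumberField F₁] [Field E₁]
    [Algebra F₁ E₁] [IsGalois F₁ E₁] [Field F₂] [NumberField F₂] [Field E₂] [Algebra F₂ E₂]
    [IsGalois F₂ E₂] (hE₁ : IsSolvablyClosed E₁) (hE₂ : IsSolvablyClosed E₂)
    (α : (E₁ ≃ₐ[F₁] E₁) →* (E₂ ≃ₐ[F₂] E₂)) (hα : Continuous α) :
    List.TFAE [
      ∃! j : E₂ →+* E₁, Induces α j,
      CyclotomicCompatible α,
      ∃ (B : Set ℕ) (d : ℝ), DensityZero B ∧ 0 < d ∧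
        ∀ p : ℕ, p.Prime → p ∉ B → DensityAtLeast (Alive α p) d,
      IsOpen (Set.range α) ∧ ∃ (B : Set ℕ) (d : ℝ), DensityZero B ∧ 0 < d ∧
        ∀ p : ℕ, p.Prime → p ∉ B →
          DensityAtLeast {v | v ∈ Alive α p ∧ Ideal.absNorm v.asIdeal ≡ 1 [MOD p]} (d / (p - 1)),
      IsOpen (Set.range α) ∧ ∃ B : Set ℕ, DensityZero B ∧ ∀ p : ℕ, p.Prime → p ∉ B →
        {v | v ∈ Alive α p ∧ ∃ q : ℕ, q.Prime ∧ q ∉ B ∧ q ≡ 1 [MOD p] ∧
          (q : 𝓞 F₁) ∉ v.asIdeal ∧ v ∉ Alive α q}.Finite,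
      IsOpen (Set.range α) ∧ ∃ (B : Set ℕ) (U : Subgroup (E₁ ≃ₐ[F₁] E₁)), DensityZero B ∧
        IsOpen (U : Set (E₁ ≃ₐ[F₁] E₁)) ∧
        ∀ g ∈ U, α g = 1 → ∀ r : ℕ, r.Prime → r ∉ B → ∀ z : E₁, z ^ r = 1 → g z = z,
      IsOpen (Set.range α) ∧ ∃ B : Set ℕ, DensityZero B ∧ ∀ p : ℕ, p.Prime → p ∉ B →
        {v | v ∈ Alive α p ∧ ∃ (O : ValuationSubring E₁) (V : ValuationSubring E₂), Above O v ∧
          MapsInto α O V ∧ ∃ r : ℕ, (r : E₁) ∈ O.nonunits ∧ (r : E₂) ∉ V.nonunits}.Finite] ∧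
    (∀ p : ℕ, p.Prime → p ≠ 2 → ∀ v ∈ Alive α p, ∀ O : ValuationSubring E₁, Above O v →
      (∃ V : ValuationSubring E₂, MapsInto α O V ∧ (p : E₂) ∉ V.nonunits ∧
        ∀ V' : ValuationSubring E₂, MapsInto α O V' → V' = V) ∧
      ∀ s : E₁ ≃ₐ[F₁] E₁, ActsAs O (Ideal.absNorm v.asIdeal) s → ∀ (n : ℕ) (z : E₂),
        z ^ (p ^ n) = 1 → α s z = z ^ Ideal.absNorm v.asIdeal) ∧
    (IsOpen (Set.range α) → ∀ p : ℕ, p.Prime → (Alive α p).Infinite ∧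
      (p ≠ 2 → {r : ℕ | r.Prime ∧ r ≡ 1 [MOD p] ∧ Alive α p ⊆ Alive α r}.Finite ∧
        {u : HeightOneSpectrum (𝓞 F₂) | ∃ V : ValuationSubring E₂, Above V u ∧
          ¬ ∃ v ∈ Alive α p, ∃ O : ValuationSubring E₁, Above O v ∧ MapsInto α O V}.Finite ∧
        IsOpen (α '' {g | ∀ n k : ℕ, (∀ z : E₁, z ^ (p ^ n) = 1 → g z = z ^ k) →
          ∀ z : E₂, z ^ (p ^ n) = 1 → α g z = z ^ k}))) ∧
    (IsOpen (Set.range α) → (∃ B : Set ℕ, DensityZero B ∧ ∀ p : ℕ, p.Prime → p ∉ B →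
      ∃ X : Set (E₁ ≃ₐ[F₁] E₁), X.Finite ∧ ∀ χ : (E₁ ≃ₐ[F₁] E₁) →* Multiplicative (ZMod p),
        IsOpen (χ.ker : Set (E₁ ≃ₐ[F₁] E₁)) → (∀ x ∈ X, χ x = 1) → ∀ g, α g = 1 → χ g = 1) →
      ∃! j : E₂ →+* E₁, Induces α j) := by
  have hs₁ := Vale.Agent.P024.solvablyClosed_of_isAbelianGalois hE₁
  have hs₂ := Vale.Agent.P024.solvablyClosed_of_isAbelianGalois hE₂
  simp only [alive_eq]
  refine ⟨?_, ?_, ?_, ?_⟩
  · have h6 := Vale.Agent.P024.equiv hs₁ hs₂ α hα DensityZero (fun _ => Iff.rfl) DensityAtLeast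
      (fun _ _ => Iff.rfl)
    have h7 := Vale.Agent.P024.equiv₇ hs₁ hs₂ α hα DensityZero (fun _ => Iff.rfl)
    tfae_have 1 ↔ 2 := h6.out 0 1
    tfae_have 1 ↔ 3 := h6.out 0 2
    tfae_have 1 ↔ 4 := h6.out 0 3
    tfae_have 1 ↔ 5 := h6.out 0 4
    tfae_have 1 ↔ 6 := h6.out 0 5
    tfae_have 1 ↔ 7 := h7
    tfae_finish
  · intro p hp hp2 v hv O hO
    have hO' := Vale.Agent.P024.ne_top_of_center hO
    obtain ⟨V, ⟨hV, hst⟩, huniq⟩ :=
      Vale.Agent.P024.existsUnique_ring hs₁ hs₂ α hα hp hp2 O hO' v hO hv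
    refine ⟨⟨V, ⟨hV, hst⟩, Vale.Agent.P024.prime_notMem_of_stab hs₁ hs₂ α hα hp hp2 O hO' v hO hv
      V hV hst, fun V' hV' => huniq V' hV'⟩, ?_⟩
    intro s hs n z hz
    exact Vale.Agent.P024.frob_pow_of_alive hs₁ hs₂ α hα hp hp2 O hO' v hO hv s hs.1
      (fun x hx => hs.2 x hx) n z hz
  · intro hopen p hp
    refine ⟨Vale.Agent.P024.alive_infinite hs₁ hs₂ α hα hopen hp, fun hp2 =>
      ⟨Vale.Agent.P024.finite_subset_alive hs₁ hs₂ α hα hopen hp hp2, ?_,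
        Vale.Agent.P024.isOpen_image_compatAt hs₁ hs₂ α hα hopen hp hp2⟩⟩
    obtain ⟨W, hW, h⟩ := Vale.Agent.P024.exists_hits hs₁ hs₂ α hα hopen hp hp2 ∅ Set.finite_empty
    refine hW.subset ?_
    rintro u ⟨V, hVu, hV⟩
    by_contra hu
    have hV' := Vale.Agent.P024.ne_top_of_center hVu
    obtain ⟨v, hv, -, O, -, hOv, hst⟩ := h u hu V hV' hVu
    exact hV ⟨v, hv, O, hOv, hV', hst⟩
  · rintro hopen ⟨B, hB, h⟩
    exact Vale.Agent.P024.existsUnique_of_exists hs₁ hs₂ α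
      (Vale.Agent.P024.induced_of_finAb hs₁ hs₂ α hα hopen Bᶜ
        (Vale.Agent.P024.meetsSplit_compl hB) fun p hp hpB => h p hp hpB)

end Vale.Agent.Results.P024.LocalCorrespondence
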